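import Crest.Agent.X261.Gauss.Defs
import Crest.Agent.X261.Bog.Defs
import Crest.Agent.X261.Grp.Defs

/-!
# Row 261, half B (amenable case), file `Defs` (helper33): the interfaces

Everything lives on `M = D.cov Γ` (the universal cover), `N` is a normal subgroup of `Γ`.

* `Alb D`      : an equivariant holomorphic map `a : M → ℂ^q` with a lattice of periods;
* `Alb.MG`     : the kernel of the periods on `Γ1`;
* `Fib S`      : the general fibre of `a` is connected, `MG` is finitely generated;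
* `Setup D N`  : `Alb D` adapted to the quotient `Γ ⧸ N` (`sub`, `maxb`);
* `Frm S`      : the Hilbert space valued holomorphic `(q+1)`-form `τ ∧ η`;
* the statements `SetupStmt`, `FibStmt`, `NIStmt`, `RelStmt`, `GaussStmt`, `PolStmt`, `HalfB`.
-/

set_option autoImplicit false
set_option linter.unusedSectionVars false

open Set Filter Topology MeasureTheory
open scoped Matrix ENNReal commutatorElement

namespace Crest.Agent.X261.B

open Crest.Agent.R275.Geo Crest.Agent.R275.Core144 Crest.Agent.R275.GC293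
open Crest.Agent.R275.OmT75 (dl)
open Crest.Agent.R273.Defs_333 Crest.Agent.R273.Kah_333 Crest.Agent.R273.UCov_914
open Crest.Agent.R273.Fock_243 (FI Gam eW ep)
open Crest.Agent.R281.Thn_280 (STh)
open Crest.Agent.R281.ThnM_280 (SThM Crit)
open Crest.Agent.X261.Top Crest.Agent.X261.Cov.A
open Crest.Agent.X261.Grp (VA VAm JN VInd AddOn)
open Crest.Agent.X261.Bog (NoBog)
open Crest.Agent.X261.Gauss (mv)
open Crest.Agent.R189 (Amen)

noncomputable section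

variable {n : ℕ} {X : Type} [TopologicalSpace X] {A : Atl n X} {Γ : Type} [Group Γ]

/-! ### the Albanese type map -/

/-- an equivariant holomorphic map to `ℂ^q` with a lattice of periods -/
structure Alb (D : MonD A Γ) where
  q : ℕ
  Γ1 : Subgroup Γ
  nrm : Γ1.Normal
  fi : Γ1.FiniteIndex
  a : D.cov Γ → Cn q
  hol : HolV (D.atl Γ) univ a
  L : Γ →* (Cn q ≃ₗᵢ[ℂ] Cn q)
  lam : Γ → Cn q
  eqv : ∀ (g : Γ) (e : D.cov Γ), a (g • e) = L g (a e) + lam g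
  triv : ∀ g ∈ Γ1, L g = 1
  disc : ∃ c : ℝ, 0 < c ∧ ∀ g ∈ Γ1, lam g ≠ 0 → c ≤ ‖lam g‖
  coc : ∃ R : ℝ, ∀ t : Cn q, ∃ g ∈ Γ1, ‖t - lam g‖ ≤ R
  /-- `da` is onto at one point -/
  reg : ∃ e, e ∉ Crit (D.atl Γ) univ a

namespace Alb

variable {D : MonD A Γ} (S : Alb D)

theorem eqv1 {g : Γ} (hg : g ∈ S.Γ1) (e : D.cov Γ) : S.a (g • e) = S.a e + S.lam g := by
  rw [S.eqv, S.triv g hg]
  rfl

theorem lam_mul (g h : Γ) : S.lam (g * h) = S.L g (S.lam h) + S.lam g := by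
  obtain ⟨e, -⟩ := S.reg
  have h1 := S.eqv (g * h) e
  rw [mul_smul, S.eqv, S.eqv, map_add, map_mul] at h1
  have h2 : (S.L g * S.L h) (S.a e) = S.L g (S.L h (S.a e)) := rfl
  rw [h2, add_assoc] at h1
  exact (add_left_cancel h1).symm

theorem addOn : AddOn S.Γ1 S.lam := fun x hx y _ => by
  rw [S.lam_mul, S.triv x hx, add_comm]
  rfl

theorem lam_one : S.lam 1 = 0 := S.addOn.one

theorem lam_inv (g : Γ) : S.lam g⁻¹ = -S.L g⁻¹ (S.lam g) := by
  have h := S.lam_mul g⁻¹ g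
  rw [inv_mul_cancel, S.lam_one] at h
  exact (neg_eq_of_add_eq_zero_right h.symm).symm

/-- conjugation acts on the periods through `L` -/
theorem lam_conj (g : Γ) {h : Γ} (hh : h ∈ S.Γ1) : S.lam (g * h * g⁻¹) = S.L g (S.lam h) := by
  obtain ⟨e, -⟩ := S.reg
  have h1 := S.eqv1 (S.nrm.conj_mem h hh g) (g • e)
  rw [mul_smul, inv_smul_smul, mul_smul, S.eqv, S.eqv1 hh, S.eqv, map_add] at h1
  have h2 : S.L g (S.a e) + S.lam g + S.L g (S.lam h) =
      S.L g (S.a e) + S.lam g + S.lam (g * h * g⁻¹) := by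
    rw [← h1]
    abel
  exact (add_left_cancel h2).symm

/-- the elements of `Γ1` which preserve `a` -/
def MG : Subgroup Γ := S.addOn.ker

theorem mem_MG {g : Γ} : g ∈ S.MG ↔ g ∈ S.Γ1 ∧ S.lam g = 0 := Iff.rfl

theorem MG_le : S.MG ≤ S.Γ1 := fun _ h => h.1

instance MG_normal : S.MG.Normal :=
  ⟨fun h hh g => ⟨S.nrm.conj_mem h hh.1 g, by rw [S.lam_conj g hh.1, hh.2, map_zero]⟩⟩

theorem a_MG {g : Γ} (hg : g ∈ S.MG) (e : D.cov Γ) : S.a (g • e) = S.a e := by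
  rw [S.eqv1 hg.1, hg.2, add_zero]

theorem mem_MG_of {g : Γ} (hg : g ∈ S.Γ1) {e : D.cov Γ} (h : S.a (g • e) = S.a e) : g ∈ S.MG := by
  rw [S.eqv1 hg] at h
  exact ⟨hg, add_eq_left.1 h⟩

theorem comm_mem {g h : Γ} (hg : g ∈ S.Γ1) (hh : h ∈ S.Γ1) : ⁅g, h⁆ ∈ S.MG :=
  ⟨by
    rw [commutatorElement_def]
    exact S.Γ1.mul_mem (S.Γ1.mul_mem (S.Γ1.mul_mem hg hh) (S.Γ1.inv_mem hg)) (S.Γ1.inv_mem hh),
   S.addOn.comm hg hh⟩

theorem vam_MG : VAm S.MG := ⟨S.Γ1, S.fi, fun _ hg _ hh => S.comm_mem hg hh⟩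

theorem hol' (p : (D.atl Γ).ι) :
    DifferentiableOn ℂ (fun z => S.a (((D.atl Γ).e p).symm z)) ((D.atl Γ).e p).target := by
  simpa using S.hol p

theorem continuous_a : Continuous S.a := by
  rw [continuous_iff_continuousAt]
  intro e
  obtain ⟨p, hp⟩ := (D.atl Γ).cover e
  have h1 : ContinuousAt (fun z => S.a (((D.atl Γ).e p).symm z)) ((D.atl Γ).e p e) :=
    (S.hol' p).continuousOn.continuousAt
      (((D.atl Γ).e p).open_target.mem_nhds (((D.atl Γ).e p).map_source hp))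
  refine (h1.comp (((D.atl Γ).e p).continuousAt hp)).congr ?_
  filter_upwards [((D.atl Γ).e p).open_source.mem_nhds hp] with y hy
  simp only [Function.comp_apply, ((D.atl Γ).e p).left_inv hy]

/-- the differentials `da_k` in the chart `p` -/
def th (p : (D.atl Γ).ι) (k : Fin S.q) (e : D.cov Γ) : Fin n → ℂ :=
  fun b => dl (D.atl Γ) p b (fun y => S.a y k) e

/-- `τ = da_1 ∧ … ∧ da_q` in the chart `p` -/
def tau (p : (D.atl Γ).ι) (e : D.cov Γ) : FI n → ℂ := dW (D.atl Γ) p S.a e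

theorem tau_eq (p : (D.atl Γ).ι) (e : D.cov Γ) : S.tau p e = wdg fun k => S.th p k e := rfl

/-- the determinant of the linear part -/
def det (g : Γ) : ℂ := LinearMap.det ((S.L g).toLinearEquiv : Cn S.q →ₗ[ℂ] Cn S.q)

theorem det_mul (g h : Γ) : S.det (g * h) = S.det g * S.det h := by
  unfold det
  rw [← map_mul, map_mul S.L]
  rfl

theorem det_of_mem {g : Γ} (hg : g ∈ S.Γ1) : S.det g = 1 := by
  unfold det
  rw [S.triv g hg]
  exact LinearMap.det_id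

theorem norm_det (g : Γ) : ‖S.det g‖ = 1 := by
  unfold det
  rw [← LinearMap.normDet_eq_norm_det]
  exact (S.L g).toLinearIsometry.normDet_eq_one

/-- the image of `MG` in the quotient -/
def K (N : Subgroup Γ) [N.Normal] : Subgroup (Γ ⧸ N) := S.MG.map (QuotientGroup.mk' N)

instance K_normal (N : Subgroup Γ) [N.Normal] : (S.K N).Normal :=
  S.MG_normal.map _ (QuotientGroup.mk'_surjective N)

end Alb

/-- FIB: the general fibre is connected -/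
structure Fib {D : MonD A Γ} (S : Alb D) where
  D0 : Set (Cn S.q)
  closed : IsClosed D0
  sth : STh D0
  reg : ∀ e, S.a e ∉ D0 → e ∉ Crit (D.atl Γ) univ S.a
  conn : ∀ t ∉ D0, IsConnected (S.a ⁻¹' {t})
  fg : S.MG.FG
  prop : ∀ K : Set (Cn S.q), IsCompact K → ∃ C : Set (D.cov Γ), IsCompact C ∧
    ∀ e, S.a e ∈ K → ∃ g ∈ S.MG, g • e ∈ C

theorem Fib.K_fg {D : MonD A Γ} {S : Alb D} (F : Fib S) (N : Subgroup Γ) [N.Normal] :
    (S.K N).FG := by
  obtain ⟨T, hT, hf⟩ := (Subgroup.fg_iff _).1 F.fg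
  exact (Subgroup.fg_iff _).2 ⟨_, by rw [Alb.K, ← hT, MonoidHom.map_closure], hf.image _⟩

/-- the map `a` adapted to the quotient `Γ ⧸ N` -/
structure Setup (D : MonD A Γ) (N : Subgroup Γ) extends Alb D where
  le : N ≤ Γ1
  /-- (SUB) the periods of `N` contain no lattice of a complex subspace -/
  sub : ∀ P : Subgroup Γ, P ≤ N →
    (∀ g ∈ P, Complex.I • lam g ∈ Submodule.span ℝ (lam '' (P : Set Γ))) → ∀ g ∈ P, lam g = 0
  /-- (MAXB) additive functions on finite index subgroups of `Γ1 ⧸ N` come from the periods -/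
  maxb : ∀ H : Subgroup Γ, Grp.FI H Γ1 → N ≤ H → ∀ b : Γ → ℝ, AddOn H b → (∀ g ∈ N, b g = 0) →
    ∃ l : Cn q →ₗ[ℝ] ℝ, ∀ g ∈ H, b g = l (lam g)

/-! ### the Hilbert space valued form -/

/-- the output of FAM + REL, the input of GAUSS: a closed holomorphic `(q+1)`-form `S = τ ∧ η` with
values in a unitary representation of `Γ ⧸ N`. -/
structure Frm {D : MonD A Γ} (S : Alb D) (N : Subgroup Γ) (H : Type) [NormedAddCommGroup H]
    [InnerProductSpace ℂ H] where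
  ρ : Γ →* (H ≃ₗᵢ[ℂ] H)
  ρ_N : ∀ g ∈ N, ρ g = 1
  s : (D.atl Γ).ι → D.cov Γ → FI n → H
  hol : ∀ p I, DifferentiableOn ℂ (fun z => s p (((D.atl Γ).e p).symm z) I) ((D.atl Γ).e p).target
  deg : ∀ p e I, I.card ≠ S.q + 1 → s p e I = 0
  tr : ∀ p p', ∀ e ∈ ((D.atl Γ).e p).source ∩ ((D.atl Γ).e p').source,
    s p e = mv (Gam (Jm (D.atl Γ) p p' e)ᵀ) (s p' e)
  /-- `g^* s = det (L g) ρ g s` -/
  eqv : ∀ (g : Γ) (i : A.ι) (v : Γ), ∀ e ∈ D.sheet i v, ∀ I,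
    s (i, v * g⁻¹) (g • e) I = S.det g • ρ g (s (i, v) e I)
  /-- `da_k ∧ s = 0` -/
  hor : ∀ p, ∀ e ∈ ((D.atl Γ).e p).source, ∀ k, mv (eW (S.th p k e)) (s p e) = 0
  /-- `d s = 0` -/
  closed : ∀ p, ∀ e ∈ ((D.atl Γ).e p).source,
    ∑ b, mv (eW (ep b)) (fun I => dl (D.atl Γ) p b (fun y => s p y I) e) = 0
  ne : ∃ p, ∃ e ∈ ((D.atl Γ).e p).source, s p e ≠ 0
  /-- `a_* (|s|² dV)` has a bounded density -/
  bd : ∀ p, ∀ z₀ ∈ ((D.atl Γ).e p).target, ∃ V ∈ 𝓝 z₀, ∃ C : ℝ≥0∞, C ≠ ⊤ ∧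
    ∀ Z : Set (Cn n), Z ⊆ V → IsCompact Z → ∀ I,
      ∫⁻ z in Z, ‖s p (((D.atl Γ).e p).symm z) I‖ₑ ^ 2 ≤
        C * volume ((fun z => S.a (((D.atl Γ).e p).symm z)) '' Z)
  /-- NOFIX -/
  nofix : ∀ P : Subgroup Γ, Grp.FI P S.MG → ∀ ξ : H, (∀ g ∈ P, ρ g ξ = ξ) →
    ∀ p, ∀ e ∈ ((D.atl Γ).e p).source, ∀ I, inner ℂ ξ (s p e I) = 0
  /-- PRIM: real primitives along the fibres over the open set `O`, invariant under `N ⊓ MG` -/
  O : Set (Cn S.q)
  O_open : IsOpen O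
  O_ne : (S.a ⁻¹' O).Nonempty
  Ξ : Set H
  sep : ∀ x : H, (∀ ξ ∈ Ξ, inner ℂ ξ x = 0) → x = 0
  prim : ∀ ξ ∈ Ξ, ∃ u : D.cov Γ → ℝ, ContinuousOn u (S.a ⁻¹' O) ∧
    (∀ g ∈ N, g ∈ S.MG → ∀ e ∈ S.a ⁻¹' O, u (g • e) = u e) ∧
    ∀ e ∈ S.a ⁻¹' O, ∃ (p : (D.atl Γ).ι) (U : Set (D.cov Γ)) (f : D.cov Γ → ℂ) (c : Cn S.q → ℝ)
      (κ : ℂ), IsOpen U ∧ e ∈ U ∧ U ⊆ ((D.atl Γ).e p).source ∧ HolAt (D.atl Γ) p U f ∧
      ∀ y ∈ U, u y = (f y).re + c (S.a y) ∧ ∀ I, inner ℂ ξ (s p y I) =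
        κ * (eW (fun b => dl (D.atl Γ) p b f y) *ᵥ S.tau p y) I

/-! ### the statements -/

/-- B0 (31, on 94, 80) -/
def SetupStmt : Prop :=
  ∀ (n : ℕ) (X : Type) [TopologicalSpace X] [T2Space X] [CompactSpace X] [ConnectedSpace X]
    (A : Atl n X) [Finite A.ι], GoodA A → Part A → Kah A → NoBog A →
    ∀ (Γ : Type) [Group Γ] (D : MonD A Γ), SimplyConnectedSpace (D.cov Γ) →
    ∀ (N : Subgroup Γ) [N.Normal], Nonempty (Setup D N)

/-- FIB (16) -/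
def FibStmt : Prop :=
  ∀ (n : ℕ) (X : Type) [TopologicalSpace X] [T2Space X] [CompactSpace X] [ConnectedSpace X]
    (A : Atl n X) [Finite A.ι], GoodA A → Part A → Kah A → NoBog A →
    ∀ (Γ : Type) [Group Γ] (D : MonD A Γ), ConnectedSpace (D.cov Γ) →
    ∀ S : Alb D, Nonempty (Fib S)

/-- B4 (31, on FAM 12, VERT 34, heis 94) -/
def NIStmt : Prop :=
  ∀ (n : ℕ) (X : Type) [TopologicalSpace X] [T2Space X] [CompactSpace X] [ConnectedSpace X]
    (A : Atl n X) [Finite A.ι], GoodA A → Part A → Kah A →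
    ∀ (Γ : Type) [Group Γ] (D : MonD A Γ), ConnectedSpace (D.cov Γ) →
    ∀ (N : Subgroup Γ) [N.Normal] (S : Setup D N), Fib S.toAlb → ¬VInd (S.K N)

/-- B3 + B5 (12, 34) -/
def RelStmt : Prop :=
  ∀ (n : ℕ) (X : Type) [TopologicalSpace X] [T2Space X] [CompactSpace X] [ConnectedSpace X]
    (A : Atl n X) [Finite A.ι], GoodA A → Part A → Kah A →
    ∀ (Γ : Type) [Group Γ] (D : MonD A Γ), ConnectedSpace (D.cov Γ) →
    ∀ (N : Subgroup Γ) [N.Normal] (S : Alb D), N ≤ S.Γ1 → Fib S → Amen (Γ ⧸ N) →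
      Infinite (S.K N) → ¬VInd (S.K N) →
      ∃ (H : Type) (_ : NormedAddCommGroup H) (_ : InnerProductSpace ℂ H), CompleteSpace H ∧
        Nonempty (Frm S N H)

/-- B6 (56, 91 on RELN 60, IG 85) -/
def GaussStmt : Prop :=
  ∀ (n : ℕ) (X : Type) [TopologicalSpace X] [T2Space X] [CompactSpace X] [ConnectedSpace X]
    (A : Atl n X) [Finite A.ι], GoodA A → Part A → Kah A →
    ∀ (Γ : Type) [Group Γ] (D : MonD A Γ), ConnectedSpace (D.cov Γ) →
    ∀ (N : Subgroup Γ) [N.Normal] (S : Setup D N), Fib S.toAlb → JN (Γ ⧸ N) → Amen (Γ ⧸ N) →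
      S.K N ≠ ⊥ → ¬VInd (S.K N) →
      ∀ (H : Type) [NormedAddCommGroup H] [InnerProductSpace ℂ H] [CompleteSpace H],
        Frm S.toAlb N H → ∀ (p : ℕ), 1 ≤ p → p ≤ n →
        ∀ F : Fol (push D (QuotientGroup.mk' N)) p, ∃ h : HM F.L, Nonempty (Pol F h)

/-- the common last step (53: `JetStmt` + `NoBog`) -/
def PolStmt : Prop :=
  ∀ (n : ℕ) (X : Type) [TopologicalSpace X] [T2Space X] [CompactSpace X] [ConnectedSpace X]
    (A : Atl n X) [Finite A.ι], GoodA A → Part A → Kah A → NoBog A →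
    ∀ (G : Type) [Group G] (D : MonD A G), ConnectedSpace (D.cov G) →
    ∀ (p : ℕ), 1 ≤ p → ∀ (F : Fol D p) (h : HM F.L), Pol F h → False

/-- half B -/
def HalfB : Prop :=
  ∀ (n : ℕ) (X : Type) [TopologicalSpace X] [T2Space X] [CompactSpace X] [ConnectedSpace X]
    (A : Atl n X) [Finite A.ι], GoodA A → Part A → Kah A → NoBog A →
    ∀ (Γ : Type) [Group Γ] (D : MonD A Γ), SimplyConnectedSpace (D.cov Γ) →
    ∀ (N : Subgroup Γ) [N.Normal], JN (Γ ⧸ N) → Amen (Γ ⧸ N) →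
    ∀ (p : ℕ), 1 ≤ p → p ≤ n → Fol (push D (QuotientGroup.mk' N)) p → False

/-- the assembly of half B -/
theorem halfB (h0 : SetupStmt) (h1 : FibStmt) (h4 : NIStmt) (h5 : RelStmt) (h6 : GaussStmt)
    (h7 : PolStmt) : HalfB := by
  intro n X _ _ _ _ A _ hA P Ka hB Γ _ D hs N _ hJ hAm p hp hpn F
  have hc : ConnectedSpace (D.cov Γ) := inferInstance
  obtain ⟨S⟩ := h0 n X A hA P Ka hB Γ D hs N
  obtain ⟨Fb⟩ := h1 n X A hA P Ka hB Γ D hc S.toAlb
  have hK : S.K N ≠ ⊥ := by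
    intro h
    have h2 : S.MG ≤ N := by
      have := (Subgroup.map_eq_bot_iff _).1 h
      rwa [QuotientGroup.ker_mk'] at this
    exact hJ.not_va ((Grp.va_quot_iff N).2 (S.vam_MG.mono h2))
  have hN := h4 n X A hA P Ka Γ D hc N S Fb
  obtain ⟨H, _, _, _, ⟨T⟩⟩ := h5 n X A hA P Ka Γ D hc N S.toAlb S.le Fb hAm
    (hJ.infinite_normal inferInstance hK) hN
  obtain ⟨h, ⟨Q⟩⟩ := h6 n X A hA P Ka Γ D hc N S Fb hJ hAm hK hN H T p hp hpn F
  exact h7 n X A hA P Ka hB (Γ ⧸ N) _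
    (connected_push D _ (QuotientGroup.mk'_surjective N)) p hp F h Q

end

end Crest.Agent.X261.B
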